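import Vale.Agent.P066.Theta.H615.Ring
import Vale.Agent.P066.Theta.Uncond

/-!
# Change of coordinates of quantum series

A `CoordChange B B'` is a bijection, additive and compatible with the forms, between a submonoid
`S` of `ℕ^r` (exponents of `QSeries B`) and a submonoid `S'` (exponents of `QSeries B'`).  Series
supported on `S` are transported to series supported on `S'`.
-/

set_option autoImplicit false

open Finset

namespace Vale.Agent.P066.Theta

noncomputable section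

variable {r : ℕ}

/-- A coordinate change between submonoids of `ℕ^r`. -/
structure CoordChange (B B' : Matrix (Fin r) (Fin r) ℤ) where
  S : AddSubmonoid (Fin r →₀ ℕ)
  S' : AddSubmonoid (Fin r →₀ ℕ)
  f : (Fin r →₀ ℕ) → (Fin r →₀ ℕ)
  g : (Fin r →₀ ℕ) → (Fin r →₀ ℕ)
  f_mem : ∀ a ∈ S, f a ∈ S'
  g_mem : ∀ a ∈ S', g a ∈ S
  gf : ∀ a ∈ S, g (f a) = a
  fg : ∀ a ∈ S', f (g a) = a
  f_add : ∀ a ∈ S, ∀ b ∈ S, f (a + b) = f a + f b
  omega_f : ∀ a ∈ S, ∀ b ∈ S, omega B' (toZ (f a)) (toZ (f b)) = omega B (toZ a) (toZ b)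

namespace CoordChange

variable {B B' : Matrix (Fin r) (Fin r) ℤ} (c : CoordChange B B')

theorem f_zero : c.f 0 = 0 := by
  have h := c.f_add 0 c.S.zero_mem 0 c.S.zero_mem
  rw [add_zero] at h
  exact left_eq_add.1 h

theorem g_zero : c.g 0 = 0 := by
  have h := c.gf 0 c.S.zero_mem
  rwa [c.f_zero] at h

theorem g_add (a : Fin r →₀ ℕ) (ha : a ∈ c.S') (b : Fin r →₀ ℕ) (hb : b ∈ c.S') :
    c.g (a + b) = c.g a + c.g b := by
  have h := c.f_add _ (c.g_mem a ha) _ (c.g_mem b hb)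
  rw [c.fg a ha, c.fg b hb] at h
  rw [← h, c.gf _ (c.S.add_mem (c.g_mem a ha) (c.g_mem b hb))]

theorem omega_g (a : Fin r →₀ ℕ) (ha : a ∈ c.S') (b : Fin r →₀ ℕ) (hb : b ∈ c.S') :
    omega B (toZ (c.g a)) (toZ (c.g b)) = omega B' (toZ a) (toZ b) := by
  rw [← c.omega_f _ (c.g_mem a ha) _ (c.g_mem b hb), c.fg a ha, c.fg b hb]

/-- The inverse coordinate change. -/
def symm : CoordChange B' B where
  S := c.S'
  S' := c.S
  f := c.g
  g := c.f
  f_mem := c.g_mem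
  g_mem := c.f_mem
  gf := c.fg
  fg := c.gf
  f_add := fun a ha b hb => c.g_add a ha b hb
  omega_f := fun a ha b hb => c.omega_g a ha b hb

@[simp] theorem symm_S : c.symm.S = c.S' := rfl
@[simp] theorem symm_S' : c.symm.S' = c.S := rfl
@[simp] theorem symm_f (a : Fin r →₀ ℕ) : c.symm.f a = c.g a := rfl
@[simp] theorem symm_g (a : Fin r →₀ ℕ) : c.symm.g a = c.f a := rfl

open Classical in
/-- Transport of a series along a coordinate change. -/
def tr (F : QSeries B) : QSeries B' := fun γ => if γ ∈ c.S' then F (c.g γ) else 0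

theorem tr_mem {F : QSeries B} {γ : Fin r →₀ ℕ} (h : γ ∈ c.S') : c.tr F γ = F (c.g γ) := by
  simp [tr, h]

theorem tr_not_mem {F : QSeries B} {γ : Fin r →₀ ℕ} (h : γ ∉ c.S') : c.tr F γ = 0 := by
  simp [tr, h]

theorem tr_f {F : QSeries B} {γ : Fin r →₀ ℕ} (h : γ ∈ c.S) : c.tr F (c.f γ) = F γ := by
  rw [c.tr_mem (c.f_mem γ h), c.gf γ h]

theorem tr_ne_zero {F : QSeries B} {γ : Fin r →₀ ℕ} (h : c.tr F γ ≠ 0) :
    γ ∈ c.S' ∧ F (c.g γ) ≠ 0 := by
  by_cases h1 : γ ∈ c.S'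
  · refine ⟨h1, ?_⟩
    rwa [c.tr_mem h1] at h
  · exact absurd (c.tr_not_mem h1) h

theorem tr_mem_supp (F : QSeries B) : c.tr F ∈ QSeries.supp (B := B') c.S' := by
  rw [QSeries.mem_supp]
  intro γ h
  exact (c.tr_ne_zero h).1

@[simp] theorem tr_apply_zero (F : QSeries B) : c.tr F 0 = F 0 := by
  rw [c.tr_mem c.S'.zero_mem, c.g_zero]

theorem tr_add (F G : QSeries B) : c.tr (F + G) = c.tr F + c.tr G := by
  ext γ
  by_cases h : γ ∈ c.S'
  · rw [QSeries.add_apply, c.tr_mem h, c.tr_mem h, c.tr_mem h, QSeries.add_apply]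
  · rw [QSeries.add_apply, c.tr_not_mem h, c.tr_not_mem h, c.tr_not_mem h, add_zero]

theorem tr_smul (t : K) (F : QSeries B) : c.tr (t • F) = t • c.tr F := by
  ext γ
  by_cases h : γ ∈ c.S'
  · rw [QSeries.smul_apply, c.tr_mem h, c.tr_mem h, QSeries.smul_apply]
  · rw [QSeries.smul_apply, c.tr_not_mem h, c.tr_not_mem h, mul_zero]

@[simp] theorem tr_one : c.tr (1 : QSeries B) = 1 := by
  ext γ
  by_cases h : γ ∈ c.S'
  · rw [c.tr_mem h, QSeries.one_apply, QSeries.one_apply]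
    by_cases h0 : γ = 0
    · rw [h0, c.g_zero]
    · rw [if_neg h0, if_neg]
      intro h1
      apply h0
      rw [← c.fg γ h, h1, c.f_zero]
  · rw [c.tr_not_mem h, QSeries.one_apply, if_neg]
    rintro rfl
    exact h c.S'.zero_mem

theorem tr_mul {F G : QSeries B} (hF : F ∈ QSeries.supp (B := B) c.S)
    (hG : G ∈ QSeries.supp (B := B) c.S) : c.tr (F * G) = c.tr F * c.tr G := by
  classical
  rw [QSeries.mem_supp] at hF hG
  ext γ
  by_cases h : γ ∈ c.S'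
  · rw [c.tr_mem h, QSeries.mul_apply, QSeries.mul_apply,
      ← sum_filter_add_sum_filter_not (antidiagonal (c.g γ)) (fun p => p.1 ∈ c.S ∧ p.2 ∈ c.S),
      ← sum_filter_add_sum_filter_not (antidiagonal γ) (fun p => p.1 ∈ c.S' ∧ p.2 ∈ c.S')]
    have h1 : ∑ p ∈ (antidiagonal (c.g γ)).filter (fun p => ¬ (p.1 ∈ c.S ∧ p.2 ∈ c.S)),
        v ^ omega B (toZ p.1) (toZ p.2) * F p.1 * G p.2 = 0 := by
      apply sum_eq_zero
      intro p hp
      rw [mem_filter] at hp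
      by_contra hc
      apply hp.2
      refine ⟨hF _ fun h0 => hc ?_, hG _ fun h0 => hc ?_⟩ <;> simp [h0]
    have h2 : ∑ p ∈ (antidiagonal γ).filter (fun p => ¬ (p.1 ∈ c.S' ∧ p.2 ∈ c.S')),
        v ^ omega B' (toZ p.1) (toZ p.2) * c.tr F p.1 * c.tr G p.2 = 0 := by
      apply sum_eq_zero
      intro p hp
      rw [mem_filter] at hp
      by_contra hc
      apply hp.2
      refine ⟨?_, ?_⟩
      · by_contra h0
        exact hc (by rw [c.tr_not_mem h0]; ring)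
      · by_contra h0
        exact hc (by rw [c.tr_not_mem h0]; ring)
    rw [h1, h2, add_zero, add_zero]
    refine sum_nbij' (fun p => (c.f p.1, c.f p.2)) (fun p => (c.g p.1, c.g p.2)) ?_ ?_ ?_ ?_ ?_
    · rintro ⟨a, b⟩ hab
      simp only [mem_filter, HasAntidiagonal.mem_antidiagonal] at hab ⊢
      refine ⟨?_, c.f_mem _ hab.2.1, c.f_mem _ hab.2.2⟩
      rw [← c.f_add _ hab.2.1 _ hab.2.2, hab.1, c.fg γ h]
    · rintro ⟨a, b⟩ hab
      simp only [mem_filter, HasAntidiagonal.mem_antidiagonal] at hab ⊢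
      refine ⟨?_, c.g_mem _ hab.2.1, c.g_mem _ hab.2.2⟩
      rw [← c.g_add _ hab.2.1 _ hab.2.2, hab.1]
    · rintro ⟨a, b⟩ hab
      simp only [mem_filter] at hab
      simp only [c.gf _ hab.2.1, c.gf _ hab.2.2]
    · rintro ⟨a, b⟩ hab
      simp only [mem_filter] at hab
      simp only [c.fg _ hab.2.1, c.fg _ hab.2.2]
    · rintro ⟨a, b⟩ hab
      simp only [mem_filter] at hab
      simp only [c.omega_f _ hab.2.1 _ hab.2.2, c.tr_f hab.2.1, c.tr_f hab.2.2]
  · rw [c.tr_not_mem h]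
    symm
    apply QSeries.mul_apply_eq_zero
    intro a b hab
    by_contra hc
    push Not at hc
    exact h (hab ▸ c.S'.add_mem (c.tr_ne_zero hc.1).1 (c.tr_ne_zero hc.2).1)

theorem symm_tr_tr {F : QSeries B} (hF : F ∈ QSeries.supp (B := B) c.S) :
    c.symm.tr (c.tr F) = F := by
  rw [QSeries.mem_supp] at hF
  ext γ
  by_cases h : γ ∈ c.S
  · rw [c.symm.tr_mem (γ := γ) h, symm_g, c.tr_f h]
  · rw [c.symm.tr_not_mem (γ := γ) h]
    by_contra h0
    exact h (hF γ (Ne.symm h0))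

theorem tr_symm_tr {F : QSeries B'} (hF : F ∈ QSeries.supp (B := B') c.S') :
    c.tr (c.symm.tr F) = F :=
  c.symm.symm_tr_tr (F := F) hF

theorem tr_inj {F G : QSeries B} (hF : F ∈ QSeries.supp (B := B) c.S)
    (hG : G ∈ QSeries.supp (B := B) c.S) (h : c.tr F = c.tr G) : F = G := by
  rw [← c.symm_tr_tr hF, ← c.symm_tr_tr hG, h]

theorem tr_inverse {F : QSeries B} (hF : F ∈ QSeries.supp (B := B) c.S) (h0 : F 0 ≠ 0) :
    c.tr (Ring.inverse F) = Ring.inverse (c.tr F) := by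
  have hu : IsUnit F := QSeries.isUnit_iff.2 h0
  have hu' : IsUnit (c.tr F) := QSeries.isUnit_iff.2 (by simpa using h0)
  have h1 : c.tr (Ring.inverse F) * c.tr F = 1 := by
    rw [← c.tr_mul (QSeries.inverse_mem_supp hF h0) hF, Ring.inverse_mul_cancel F hu, c.tr_one]
  calc c.tr (Ring.inverse F) = c.tr (Ring.inverse F) * (c.tr F * Ring.inverse (c.tr F)) := by
        rw [Ring.mul_inverse_cancel _ hu', mul_one]
    _ = Ring.inverse (c.tr F) := by rw [← mul_assoc, h1, one_mul]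

/-- Transport of the factorization by a linear form. -/
theorem tr_triple {h hp h0 hm : QSeries B} {Q Q' : Fin r → ℤ}
    (hQ : ∀ γ ∈ c.S, wt Q' (c.f γ) = wt Q γ)
    (sp : hp ∈ QSeries.supp (B := B) c.S) (s0 : h0 ∈ QSeries.supp (B := B) c.S)
    (sm : hm ∈ QSeries.supp (B := B) c.S) (H : IsTriple h hp h0 hm Q) :
    IsTriple (c.tr h) (c.tr hp) (c.tr h0) (c.tr hm) Q' := by
  have hQ' : ∀ γ ∈ c.S', wt Q' γ = wt Q (c.g γ) := by
    intro γ hγ
    rw [← hQ _ (c.g_mem γ hγ), c.fg γ hγ]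
  have hne : ∀ γ ∈ c.S', γ ≠ 0 → c.g γ ≠ 0 := by
    intro γ hγ h h1
    apply h
    rw [← c.fg γ hγ, h1, c.f_zero]
  refine ⟨?_, ?_, ?_, ?_, ?_, ?_, ?_⟩
  · rw [tr_apply_zero, H.gp_zero]
  · intro γ hγ h1
    obtain ⟨h2, h3⟩ := c.tr_ne_zero h1
    rw [hQ' γ h2]
    exact H.gp_supp _ (hne γ h2 hγ) h3
  · rw [tr_apply_zero, H.g0_zero]
  · intro γ h1
    obtain ⟨h2, h3⟩ := c.tr_ne_zero h1
    rw [hQ' γ h2]
    exact H.g0_supp _ h3
  · rw [tr_apply_zero, H.gm_zero]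
  · intro γ hγ h1
    obtain ⟨h2, h3⟩ := c.tr_ne_zero h1
    rw [hQ' γ h2]
    exact H.gm_supp _ (hne γ h2 hγ) h3
  · rw [H.eq, c.tr_mul ((QSeries.supp (B := B) c.S).mul_mem sp s0) sm, c.tr_mul sp s0]

/-- Grading derivation of a linear form `l`. -/
def _root_.Vale.Agent.P066.Theta.gradD {B : Matrix (Fin r) (Fin r) ℤ} (l : Fin r → ℤ)
    (F : QSeries B) : QSeries B := fun γ => (wt l γ : K) * F γ

theorem tr_gradD {l l' : Fin r → ℤ} (hl : ∀ γ ∈ c.S, wt l' (c.f γ) = wt l γ) (F : QSeries B) :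
    c.tr (gradD l F) = gradD l' (c.tr F) := by
  ext γ
  by_cases h : γ ∈ c.S'
  · rw [c.tr_mem h]
    show (wt l (c.g γ) : K) * F (c.g γ) = (wt l' γ : K) * c.tr F γ
    rw [c.tr_mem h, ← hl _ (c.g_mem γ h), c.fg γ h]
  · rw [c.tr_not_mem h]
    show 0 = (wt l' γ : K) * c.tr F γ
    rw [c.tr_not_mem h, mul_zero]

end CoordChange

end

end Vale.Agent.P066.Theta
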