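import Vale.Agent.P066.Theta.H865.Transport
import Vale.Agent.P066.Theta.MutDefs

/-!
# The coordinate changes of a mutation

`mutCC B k` : `{b_k ≤ w₊(b)}` of the seed `B` ↔ `{b_k ≤ w₊(b)}` of the mutated seed (series
`transp B k h`), and `mutCC' B k` : `{b_k ≤ w₋(b)}` ↔ `{b_k ≤ w₋(b)}` (composition of the first one
with the transvection `b ↦ b + ω(b, y_k) y_k`).
-/

set_option autoImplicit false

open Finset

namespace Vale.Agent.P066.Theta

noncomputable section

variable {r : ℕ} {B : Matrix (Fin r) (Fin r) ℤ}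

theorem skew_entry (hB : B.transpose = -B) (i j : Fin r) : B i j = - B j i := by
  have := congrFun (congrFun hB j) i
  simpa using this

theorem skew_diag (hB : B.transpose = -B) (k : Fin r) : B k k = 0 := by
  have := skew_entry hB k k
  omega

/-- a weight function with value `0` at `k` -/
def wsum (n : Fin r → ℕ) (b : Fin r →₀ ℕ) : ℕ := ∑ j, b j * n j

theorem wsum_add (n : Fin r → ℕ) (a b : Fin r →₀ ℕ) : wsum n (a + b) = wsum n a + wsum n b := by
  simp [wsum, add_mul, sum_add_distrib]

theorem wsum_update (n : Fin r → ℕ) {k : Fin r} (hk : n k = 0) (b : Fin r →₀ ℕ) (m : ℕ) :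
    wsum n (b.update k m) = wsum n b := by
  unfold wsum
  refine sum_congr rfl fun j _ => ?_
  by_cases h : j = k
  · rw [h, hk, mul_zero, mul_zero]
  · rw [Finsupp.update_apply, if_neg h]

/-- the submonoid `{b_k ≤ ∑_j n_j b_j}` -/
def wS (n : Fin r → ℕ) (k : Fin r) : AddSubmonoid (Fin r →₀ ℕ) where
  carrier := {b | b k ≤ wsum n b}
  add_mem' := by
    intro a b ha hb
    change a k ≤ wsum n a at ha
    change b k ≤ wsum n b at hb
    show (a + b) k ≤ wsum n (a + b)
    rw [wsum_add, Finsupp.add_apply]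
    omega
  zero_mem' := by simp [wsum]

theorem mem_wS {n : Fin r → ℕ} {k : Fin r} {b : Fin r →₀ ℕ} : b ∈ wS n k ↔ b k ≤ wsum n b :=
  Iff.rfl

/-- `b_k ↦ ∑_j n_j b_j - b_k` -/
def wflip (n : Fin r → ℕ) (k : Fin r) (b : Fin r →₀ ℕ) : Fin r →₀ ℕ :=
  b.update k (wsum n b - b k)

theorem wflip_self (n : Fin r → ℕ) (k : Fin r) (b : Fin r →₀ ℕ) :
    wflip n k b k = wsum n b - b k := by
  simp [wflip]

theorem wflip_ne (n : Fin r → ℕ) {k j : Fin r} (h : j ≠ k) (b : Fin r →₀ ℕ) :
    wflip n k b j = b j := by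
  rw [wflip, Finsupp.update_apply, if_neg h]

theorem wsum_wflip {n : Fin r → ℕ} {k : Fin r} (hk : n k = 0) (b : Fin r →₀ ℕ) :
    wsum n (wflip n k b) = wsum n b := wsum_update n hk b _

theorem wflip_mem {n : Fin r → ℕ} {k : Fin r} (hk : n k = 0) (b : Fin r →₀ ℕ) :
    wflip n k b ∈ wS n k := by
  rw [mem_wS, wsum_wflip hk, wflip_self]
  omega

theorem wflip_wflip {n : Fin r → ℕ} {k : Fin r} (hk : n k = 0) {b : Fin r →₀ ℕ}
    (h : b ∈ wS n k) : wflip n k (wflip n k b) = b := by
  rw [mem_wS] at h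
  ext j
  by_cases hj : j = k
  · subst hj
    rw [wflip_self, wsum_wflip hk, wflip_self]
    omega
  · rw [wflip_ne n hj, wflip_ne n hj]

theorem wflip_add {n : Fin r → ℕ} {k : Fin r} {a b : Fin r →₀ ℕ} (ha : a ∈ wS n k)
    (hb : b ∈ wS n k) : wflip n k (a + b) = wflip n k a + wflip n k b := by
  rw [mem_wS] at ha hb
  ext j
  by_cases hj : j = k
  · subst hj
    rw [Finsupp.add_apply, wflip_self, wflip_self, wflip_self, wsum_add, Finsupp.add_apply]
    omega
  · rw [Finsupp.add_apply, wflip_ne n hj, wflip_ne n hj, wflip_ne n hj, Finsupp.add_apply]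

/-! ### the form in the mutated basis -/

/-- The vector `∑_j a_j y'_j` in the old basis. -/
def mutLin (B : Matrix (Fin r) (Fin r) ℤ) (k : Fin r) (a : Fin r → ℤ) : Fin r → ℤ :=
  ∑ j, a j • mutVec B k j

theorem omega_sum_left (B : Matrix (Fin r) (Fin r) ℤ) {ι : Type*} (s : Finset ι)
    (x : ι → Fin r → ℤ) (y : Fin r → ℤ) : omega B (∑ i ∈ s, x i) y = ∑ i ∈ s, omega B (x i) y := by
  classical
  induction s using Finset.induction_on with
  | empty => simp
  | insert a s ha ih => rw [sum_insert ha, sum_insert ha, omega_add_left, ih]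

theorem omega_sum_right (B : Matrix (Fin r) (Fin r) ℤ) {ι : Type*} (s : Finset ι)
    (x : Fin r → ℤ) (y : ι → Fin r → ℤ) : omega B x (∑ i ∈ s, y i) = ∑ i ∈ s, omega B x (y i) := by
  classical
  induction s using Finset.induction_on with
  | empty => simp
  | insert a s ha ih => rw [sum_insert ha, sum_insert ha, omega_add_right, ih]

theorem omega_smul_left (B : Matrix (Fin r) (Fin r) ℤ) (c : ℤ) (x y : Fin r → ℤ) :
    omega B (c • x) y = c * omega B x y := by
  simp only [omega, Pi.smul_apply, smul_eq_mul, Finset.mul_sum]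
  refine sum_congr rfl fun i _ => sum_congr rfl fun j _ => ?_
  ring

theorem omega_smul_right (B : Matrix (Fin r) (Fin r) ℤ) (c : ℤ) (x y : Fin r → ℤ) :
    omega B x (c • y) = c * omega B x y := by
  simp only [omega, Pi.smul_apply, smul_eq_mul, Finset.mul_sum]
  refine sum_congr rfl fun i _ => sum_congr rfl fun j _ => ?_
  ring

theorem omega_mutB (B : Matrix (Fin r) (Fin r) ℤ) (k : Fin r) (a b : Fin r → ℤ) :
    omega (mutB B k) a b = omega B (mutLin B k a) (mutLin B k b) := by
  unfold mutLin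
  rw [omega_sum_left]
  simp only [omega_sum_right, omega_smul_left, omega_smul_right]
  show ∑ i, ∑ j, a i * omega B (mutVec B k i) (mutVec B k j) * b j = _
  refine sum_congr rfl fun i _ => sum_congr rfl fun j _ => ?_
  ring

theorem mutB_skew (hB : B.transpose = -B) (k : Fin r) : (mutB B k).transpose = -(mutB B k) := by
  ext i j
  show omega B (mutVec B k j) (mutVec B k i) = - omega B (mutVec B k i) (mutVec B k j)
  exact omega_swap hB _ _

/-- coordinates of `∑_j a_j y'_j` -/
theorem mutLin_ne {k j : Fin r} (h : j ≠ k) (B : Matrix (Fin r) (Fin r) ℤ) (a : Fin r → ℤ) :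
    mutLin B k a j = a j := by
  unfold mutLin
  rw [Finset.sum_apply, sum_eq_single j]
  · rw [Pi.smul_apply, mutVec, if_neg h]
    simp [h]
  · intro i _ hij
    rw [Pi.smul_apply, mutVec]
    by_cases hi : i = k
    · rw [if_pos hi]
      simp [h]
    · rw [if_neg hi]
      simp [h, Ne.symm hij]
  · simp

theorem mutLin_self (hB : B.transpose = -B) (k : Fin r) (a : Fin r → ℤ) :
    mutLin B k a k = (∑ j, a j * max (B j k) 0) - a k := by
  unfold mutLin
  rw [Finset.sum_apply, ← Finset.sum_erase_add univ _ (mem_univ k),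
    ← Finset.sum_erase_add univ (fun j => a j * max (B j k) 0) (mem_univ k)]
  have h1 : ∀ j ∈ univ.erase k, (a j • mutVec B k j) k = a j * max (B j k) 0 := by
    intro j hj
    rw [mem_erase] at hj
    rw [Pi.smul_apply, mutVec, if_neg hj.1]
    simp [Ne.symm hj.1]
  rw [sum_congr rfl h1]
  have h2 : (a k • mutVec B k k) k = - a k := by
    rw [Pi.smul_apply, mutVec, if_pos rfl]
    simp
  rw [h2, skew_diag hB k]
  simp
  ring

theorem omega_single_left (B : Matrix (Fin r) (Fin r) ℤ) (k : Fin r) (y : Fin r → ℤ) :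
    omega B (Pi.single k 1) y = ∑ j, B k j * y j := by
  unfold omega
  rw [sum_eq_single k]
  · simp
  · intro i _ hi
    apply sum_eq_zero
    intro j _
    rw [Pi.single_apply, if_neg hi]
    ring
  · simp

theorem omega_single_right (B : Matrix (Fin r) (Fin r) ℤ) (k : Fin r) (x : Fin r → ℤ) :
    omega B x (Pi.single k 1) = ∑ j, x j * B j k := by
  unfold omega
  refine sum_congr rfl fun i _ => ?_
  rw [sum_eq_single k]
  · simp
  · intro j _ hj
    rw [Pi.single_apply, if_neg hj]
    ring
  · simp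

/-! ### the two coordinate changes -/

/-- the weights `[B j k]₊` -/
def nplus (B : Matrix (Fin r) (Fin r) ℤ) (k j : Fin r) : ℕ := (max (B j k) 0).toNat

/-- the weights `[B k j]₊` -/
def nminus (B : Matrix (Fin r) (Fin r) ℤ) (k j : Fin r) : ℕ := (max (B k j) 0).toNat

theorem nplus_self (hB : B.transpose = -B) (k : Fin r) : nplus B k k = 0 := by
  simp [nplus, skew_diag hB k]

theorem nminus_self (hB : B.transpose = -B) (k : Fin r) : nminus B k k = 0 := by
  simp [nminus, skew_diag hB k]

theorem wplus_eq (B : Matrix (Fin r) (Fin r) ℤ) (k : Fin r) (b : Fin r →₀ ℕ) :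
    wplus B k b = wsum (nplus B k) b := rfl

theorem wminus_eq (B : Matrix (Fin r) (Fin r) ℤ) (k : Fin r) (b : Fin r →₀ ℕ) :
    wminus B k b = wsum (nminus B k) b := rfl

theorem tmap_eq (B : Matrix (Fin r) (Fin r) ℤ) (k : Fin r) (b : Fin r →₀ ℕ) :
    tmap B k b = wflip (nplus B k) k b := rfl

theorem wplus_cast (B : Matrix (Fin r) (Fin r) ℤ) (k : Fin r) (b : Fin r →₀ ℕ) :
    (wplus B k b : ℤ) = ∑ j, (b j : ℤ) * max (B j k) 0 := by
  unfold wplus
  rw [Nat.cast_sum]
  refine sum_congr rfl fun j _ => ?_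
  rw [Nat.cast_mul, Int.toNat_of_nonneg (le_max_right _ _)]

theorem wminus_cast (B : Matrix (Fin r) (Fin r) ℤ) (k : Fin r) (b : Fin r →₀ ℕ) :
    (wminus B k b : ℤ) = ∑ j, (b j : ℤ) * max (B k j) 0 := by
  unfold wminus
  rw [Nat.cast_sum]
  refine sum_congr rfl fun j _ => ?_
  rw [Nat.cast_mul, Int.toNat_of_nonneg (le_max_right _ _)]

/-- `ω(b, y_k) = w₊(b) - w₋(b)`. -/
theorem omega_toZ_single (hB : B.transpose = -B) (k : Fin r) (b : Fin r →₀ ℕ) :
    omega B (toZ b) (Pi.single k 1) = (wplus B k b : ℤ) - (wminus B k b : ℤ) := by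
  rw [omega_single_right, wplus_cast, wminus_cast, ← sum_sub_distrib]
  refine sum_congr rfl fun j _ => ?_
  rw [skew_entry hB k j]
  show (b j : ℤ) * B j k = _
  rcases le_total (B j k) 0 with h | h
  · rw [max_eq_right h, max_eq_left (by omega)]
    ring
  · rw [max_eq_left h, max_eq_right (by omega)]
    ring

theorem mutLin_wflip_plus (hB : B.transpose = -B) {k : Fin r} {b : Fin r →₀ ℕ}
    (h : b ∈ wS (nplus B k) k) : mutLin B k (toZ (wflip (nplus B k) k b)) = toZ b := by
  have hk := nplus_self hB k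
  funext j
  by_cases hj : j = k
  · subst hj
    have h1 : ∑ i, toZ (wflip (nplus B j) j b) i * max (B i j) 0 = (wsum (nplus B j) b : ℤ) := by
      rw [← wsum_wflip hk b, ← wplus_eq, wplus_cast]
      rfl
    rw [mutLin_self hB, h1]
    show (wsum (nplus B j) b : ℤ) - (wflip (nplus B j) j b j : ℤ) = (b j : ℤ)
    rw [wflip_self]
    rw [mem_wS] at h
    omega
  · rw [mutLin_ne hj]
    show (wflip (nplus B k) k b j : ℤ) = (b j : ℤ)
    rw [wflip_ne _ hj]

/-- The transvection `b ↦ b + ω(b, y_k) y_k`. -/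
def transv (B : Matrix (Fin r) (Fin r) ℤ) (k : Fin r) (x : Fin r → ℤ) : Fin r → ℤ :=
  x + omega B x (Pi.single k 1) • Pi.single k 1

theorem omega_transv (hB : B.transpose = -B) (k : Fin r) (x y : Fin r → ℤ) :
    omega B (transv B k x) (transv B k y) = omega B x y := by
  unfold transv
  rw [omega_add_left, omega_add_right, omega_add_right, omega_smul_left, omega_smul_right,
    omega_smul_right, omega_smul_left, omega_self hB, omega_swap hB (Pi.single k 1) y]
  ring

theorem mutLin_wflip_minus (hB : B.transpose = -B) {k : Fin r} {b : Fin r →₀ ℕ}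
    (h : b ∈ wS (nminus B k) k) :
    mutLin B k (toZ (wflip (nminus B k) k b)) = transv B k (toZ b) := by
  have hk := nminus_self hB k
  funext j
  by_cases hj : j = k
  · subst hj
    have h1 : ∑ i, toZ (wflip (nminus B j) j b) i * max (B i j) 0 = (wplus B j b : ℤ) := by
      rw [wplus_cast]
      refine sum_congr rfl fun i _ => ?_
      by_cases hi : i = j
      · subst hi
        rw [skew_diag hB]
        simp
      · show (wflip (nminus B j) j b i : ℤ) * _ = _
        rw [wflip_ne _ hi]
    rw [mutLin_self hB, h1]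
    show (wplus B j b : ℤ) - (wflip (nminus B j) j b j : ℤ) = transv B j (toZ b) j
    rw [wflip_self, transv, Pi.add_apply, omega_toZ_single hB]
    rw [mem_wS] at h
    rw [wminus_eq]
    show _ = (b j : ℤ) + _
    simp
    omega
  · rw [mutLin_ne hj]
    show (wflip (nminus B k) k b j : ℤ) = transv B k (toZ b) j
    rw [wflip_ne _ hj, transv, Pi.add_apply]
    simp [hj, toZ]

/-- The coordinate change `{b_k ≤ w₊(b)}` to the mutated seed. -/
def mutCC (B : Matrix (Fin r) (Fin r) ℤ) (hB : B.transpose = -B) (k : Fin r) :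
    CoordChange B (mutB B k) where
  S := wS (nplus B k) k
  S' := wS (nplus B k) k
  f := wflip (nplus B k) k
  g := wflip (nplus B k) k
  f_mem := fun a _ => wflip_mem (nplus_self hB k) a
  g_mem := fun a _ => wflip_mem (nplus_self hB k) a
  gf := fun _ ha => wflip_wflip (nplus_self hB k) ha
  fg := fun _ ha => wflip_wflip (nplus_self hB k) ha
  f_add := fun _ ha _ hb => wflip_add ha hb
  omega_f := fun a ha b hb => by
    rw [omega_mutB, mutLin_wflip_plus hB ha, mutLin_wflip_plus hB hb]

/-- The coordinate change `{b_k ≤ w₋(b)}` to the mutated seed (transvection included). -/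
def mutCC' (B : Matrix (Fin r) (Fin r) ℤ) (hB : B.transpose = -B) (k : Fin r) :
    CoordChange B (mutB B k) where
  S := wS (nminus B k) k
  S' := wS (nminus B k) k
  f := wflip (nminus B k) k
  g := wflip (nminus B k) k
  f_mem := fun a _ => wflip_mem (nminus_self hB k) a
  g_mem := fun a _ => wflip_mem (nminus_self hB k) a
  gf := fun _ ha => wflip_wflip (nminus_self hB k) ha
  fg := fun _ ha => wflip_wflip (nminus_self hB k) ha
  f_add := fun _ ha _ hb => wflip_add ha hb
  omega_f := fun a ha b hb => by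
    rw [omega_mutB, mutLin_wflip_minus hB ha, mutLin_wflip_minus hB hb, omega_transv hB]

theorem transp_eq_tr (hB : B.transpose = -B) (k : Fin r) (h : QSeries B) :
    transp B k h = (mutCC B hB k).tr h := by
  classical
  ext b
  by_cases hb : b k ≤ wplus B k b
  · have hb' : b ∈ (mutCC B hB k).S' := hb
    rw [(mutCC B hB k).tr_mem hb']
    show (if b k ≤ wplus B k b then h (tmap B k b) else 0) = _
    rw [if_pos hb]
    rfl
  · have hb' : b ∉ (mutCC B hB k).S' := hb
    rw [(mutCC B hB k).tr_not_mem hb']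
    show (if b k ≤ wplus B k b then h (tmap B k b) else 0) = _
    rw [if_neg hb]

/-- `ω'(·, b')` in the coordinates of the mutated seed, for a vector in `S`: the form `ω(·, x)`,
`x = mutLin b'`. -/
theorem wt_chartAt_mutB (hB : B.transpose = -B) (k : Fin r) (b' : Fin r →₀ ℕ) {a : Fin r →₀ ℕ}
    (ha : a ∈ (mutCC B hB k).S) :
    wt (chartAt (mutB B k) 0 b') ((mutCC B hB k).f a) =
      omega B (toZ a) (mutLin B k (toZ b')) := by
  have h1 : wt (chartAt (mutB B k) 0 b') ((mutCC B hB k).f a) =
      omega (mutB B k) (toZ ((mutCC B hB k).f a)) (toZ b') := by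
    unfold wt chartAt omega
    refine sum_congr rfl fun i _ => ?_
    rw [Pi.zero_apply, zero_add, Finset.mul_sum]
    refine sum_congr rfl fun j _ => ?_
    show ((mutCC B hB k).f a i : ℤ) * (mutB B k i j * (b' j : ℤ)) =
      ((mutCC B hB k).f a i : ℤ) * mutB B k i j * (b' j : ℤ)
    ring
  rw [h1, omega_mutB]
  congr 1
  exact mutLin_wflip_plus hB ha

/-- The same for the second coordinate change. -/
theorem wt_chartAt_mutB' (hB : B.transpose = -B) (k : Fin r) (b' : Fin r →₀ ℕ) {a : Fin r →₀ ℕ}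
    (ha : a ∈ (mutCC' B hB k).S) :
    wt (chartAt (mutB B k) 0 b') ((mutCC' B hB k).f a) =
      omega B (transv B k (toZ a)) (mutLin B k (toZ b')) := by
  have h1 : wt (chartAt (mutB B k) 0 b') ((mutCC' B hB k).f a) =
      omega (mutB B k) (toZ ((mutCC' B hB k).f a)) (toZ b') := by
    unfold wt chartAt omega
    refine sum_congr rfl fun i _ => ?_
    rw [Pi.zero_apply, zero_add, Finset.mul_sum]
    refine sum_congr rfl fun j _ => ?_
    show ((mutCC' B hB k).f a i : ℤ) * (mutB B k i j * (b' j : ℤ)) =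
      ((mutCC' B hB k).f a i : ℤ) * mutB B k i j * (b' j : ℤ)
    ring
  rw [h1, omega_mutB]
  congr 1
  exact mutLin_wflip_minus hB ha

end

end Vale.Agent.P066.Theta
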